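import Mathlib

/-!
Row 47: the construction.  Indices are pairs (block, offset); blocks are marker blocks,
main levels (Euler tour of a binary tree) and padding blocks.
-/

set_option autoImplicit false

namespace Crest.Agent.R047

/-! ### Arithmetic of the Euler-tour order -/

/-- height of level `l` -/
def ht (h l : ℕ) : ℕ := (h - l) + (l - h)

/-- position of offset `x` of level `l` -/
def pos (h l x : ℕ) : ℕ :=
  if l < h then x / 2 ^ (ht h l) * 2 ^ (ht h l)
  else x / 2 ^ (ht h l) * 2 ^ (ht h l) + (2 ^ (ht h l) - 1)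

lemma pos_div_self (h l x : ℕ) : pos h l x / 2 ^ (ht h l) = x / 2 ^ (ht h l) := by
  have hp : 0 < 2 ^ (ht h l) := by positivity
  unfold pos
  split_ifs
  · exact Nat.mul_div_cancel _ hp
  · rw [mul_comm, Nat.mul_add_div hp, Nat.div_eq_of_lt (show 2 ^ (ht h l) - 1 < _ by omega)]
    simp

lemma pos_div (h l x e : ℕ) (he : ht h l ≤ e) : pos h l x / 2 ^ e = x / 2 ^ e := by
  obtain ⟨d, rfl⟩ := Nat.exists_eq_add_of_le he
  rw [pow_add, ← Nat.div_div_eq_div_mul, ← Nat.div_div_eq_div_mul, pos_div_self]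

lemma div_le_of_pos_le {h l l' x x' e : ℕ} (hle : pos h l x ≤ pos h l' x') (he : ht h l ≤ e)
    (he' : ht h l' ≤ e) : x / 2 ^ e ≤ x' / 2 ^ e := by
  rw [← pos_div h l x e he, ← pos_div h l' x' e he']
  exact Nat.div_le_div_right hle

lemma pos_le_succ {h l x x' : ℕ}
    (hx : x / 2 ^ (max (ht h l) (ht h (l + 1))) = x' / 2 ^ (max (ht h l) (ht h (l + 1)))) :
    pos h l x ≤ pos h (l + 1) x' := by
  by_cases hl : l < h
  · have hm : max (ht h l) (ht h (l + 1)) = ht h l := by unfold ht; omega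
    rw [hm] at hx
    have h1 : pos h l x = x / 2 ^ (ht h l) * 2 ^ (ht h l) := by unfold pos; rw [if_pos hl]
    rw [h1, hx, ← pos_div h (l + 1) x' (ht h l) (by unfold ht; omega)]
    exact Nat.div_mul_le_self _ _
  · have hm : max (ht h l) (ht h (l + 1)) = ht h (l + 1) := by unfold ht; omega
    rw [hm] at hx
    have h1 : pos h (l + 1) x' =
        x' / 2 ^ (ht h (l + 1)) * 2 ^ (ht h (l + 1)) + (2 ^ (ht h (l + 1)) - 1) := by
      unfold pos; rw [if_neg (by omega)]
    rw [h1, ← hx, ← pos_div h l x (ht h (l + 1)) (by unfold ht; omega)]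
    have hp : 0 < 2 ^ (ht h (l + 1)) := by positivity
    have := Nat.div_add_mod (pos h l x) (2 ^ (ht h (l + 1)))
    have h2 := Nat.mod_lt (pos h l x) hp
    rw [mul_comm] at this
    omega

lemma rev_div {h e u : ℕ} (he : e ≤ h) (hu : u < 2 ^ h) :
    u / 2 ^ e + (2 ^ h - (u + 1)) / 2 ^ e + 1 = 2 ^ (h - e) := by
  obtain ⟨d, rfl⟩ := Nat.exists_eq_add_of_le he
  simp only [Nat.add_sub_cancel_left]
  have hp : 0 < 2 ^ e := by positivity
  rw [pow_add] at hu ⊢
  set w := 2 ^ e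
  set N := 2 ^ d
  have h1 := Nat.div_add_mod u w
  have h2 := Nat.mod_lt u hp
  set q := u / w
  set r := u % w
  have hq : q < N := by
    by_contra hc
    push Not at hc
    have : w * N ≤ w * q := Nat.mul_le_mul_left _ hc
    omega
  obtain ⟨k, hk⟩ := Nat.exists_eq_add_of_lt hq
  have : (w * N - (u + 1)) / w = k := by
    have h3 : w * N - (u + 1) = w * k + (w - 1 - r) := by
      rw [hk, mul_add, mul_add]; omega
    rw [h3, Nat.mul_add_div hp, Nat.div_eq_of_lt (by omega)]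
    simp
  omega

/-! ### Index set -/

/-- marker labels: kind (false = row step, true = column step), level, three parities -/
abbrev Mk (h : ℕ) := Bool × Fin (2 * h) × Bool × Bool × Bool

/-- blocks -/
abbrev Blk (h : ℕ) := (Mk h × Bool) ⊕ (Fin (2 * h + 1) ⊕ Fin (320 * h + 1))

/-- indices -/
structure Idx (h : ℕ) where
  b : Blk h
  x : Fin (2 ^ h)

/-- indices as pairs -/
def idxEquiv (h : ℕ) : Idx h ≃ Blk h × Fin (2 ^ h) where
  toFun a := (a.b, a.x)
  invFun p := ⟨p.1, p.2⟩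
  left_inv _ := rfl
  right_inv _ := rfl

instance (h : ℕ) : Fintype (Idx h) := Fintype.ofEquiv _ (idxEquiv h).symm

lemma card_Idx (h : ℕ) : Fintype.card (Idx h) = (386 * h + 2) * 2 ^ h := by
  rw [Fintype.card_congr (idxEquiv h)]
  simp only [Fintype.card_prod, Fintype.card_sum, Fintype.card_fin, Fintype.card_bool]
  ring

/-- sorting key -/
def key {h : ℕ} : Idx h → ℕ ×ₗ ℕ ×ₗ ℕ ×ₗ ℕ
  | ⟨Sum.inl (t, a), x⟩ => toLex (0, toLex (Encodable.encode t, toLex (a.toNat, x.val)))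
  | ⟨Sum.inr (Sum.inl l), x⟩ => toLex (1, toLex (pos h l x, toLex (l.val, x.val)))
  | ⟨Sum.inr (Sum.inr k), x⟩ => toLex (2, toLex (k.val, toLex (0, x.val)))

lemma key_injective {h : ℕ} : Function.Injective (key (h := h)) := by
  rintro ⟨(⟨t, a⟩ | l | k), x⟩ ⟨(⟨t', a'⟩ | l' | k'), x'⟩ hk <;>
    simp only [key, toLex_inj, Prod.mk.injEq] at hk
  · obtain ⟨-, h1, h2, h3⟩ := hk
    have := Encodable.encode_injective h1
    have h4 : a = a' := by cases a <;> cases a' <;> simp_all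
    have := Fin.ext h3
    subst_vars; rfl
  · omega
  · omega
  · omega
  · obtain ⟨-, -, h2, h3⟩ := hk
    have := Fin.ext h2
    have := Fin.ext h3
    subst_vars; rfl
  · omega
  · omega
  · omega
  · obtain ⟨-, h2, -, h3⟩ := hk
    have := Fin.ext h2
    have := Fin.ext h3
    subst_vars; rfl

instance (h : ℕ) : LinearOrder (Idx h) := LinearOrder.lift' key key_injective

lemma lt_iff {h : ℕ} (a b : Idx h) : a < b ↔ key a < key b := Iff.rfl

/-- marker indices -/
def IsM {h : ℕ} (a : Idx h) : Prop := a.b.isLeft = true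

lemma isM_of_lt {h : ℕ} {a b : Idx h} (hab : a < b) (hb : IsM b) : IsM a := by
  rcases a with ⟨(⟨t, a⟩ | l | k), x⟩ <;> rcases b with ⟨(⟨t', a'⟩ | l' | k'), x'⟩ <;>
    simp_all [IsM, lt_iff, key, Prod.Lex.toLex_lt_toLex]

lemma pos_le_of_lt {h : ℕ} {l l' : Fin (2 * h + 1)} {x x' : Fin (2 ^ h)}
    (hab : (⟨Sum.inr (Sum.inl l), x⟩ : Idx h) < ⟨Sum.inr (Sum.inl l'), x'⟩) :
    pos h l x ≤ pos h l' x' := by
  simp only [lt_iff, key, Prod.Lex.toLex_lt_toLex] at hab
  omega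

/-- class of a (non-marker) index: level and parity -/
def cls {h : ℕ} : Idx h → ℕ × Bool
  | ⟨Sum.inl _, _⟩ => (2 * h + 3, false)
  | ⟨Sum.inr (Sum.inl l), x⟩ => (l.val, decide (x.val / 2 ^ (ht h l) % 2 = 1))
  | ⟨Sum.inr (Sum.inr k), _⟩ => (if k.val = 0 then 2 * h + 1 else 2 * h + 2, false)

/-- class required of the rows attached to marker column `(t, a)` -/
def reqR {h : ℕ} : Mk h → Bool → ℕ × Bool
  | (_, l, p, _, _), false => (l.val, p)
  | (false, _, _, _, _), true => (2 * h + 1, false)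
  | (true, l, _, _, r), true => (l.val + 1, r)

/-- class required of the columns attached to marker row `(t, a)` -/
def reqC {h : ℕ} : Mk h → Bool → ℕ × Bool
  | (false, l, _, q, _), false => (l.val, q)
  | (false, l, _, _, r), true => (l.val + 1, r)
  | (true, l, _, q, _), false => (l.val + 1, q)
  | (true, _, _, _, _), true => (2 * h + 1, false)

/-- valid markers -/
def Valid {h : ℕ} : Mk h → Prop
  | (false, l, p, q, _) => h ≤ l.val → p ≠ q
  | (true, l, _, q, r) => l.val + 1 ≤ h → r ≠ q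

/-- the staircase relation on the main levels -/
def Stair (h l x l' y : ℕ) : Prop :=
  (l' = l ∨ l' = l + 1) ∧
    2 ^ (h - max (ht h l) (ht h l')) ≤
      x / 2 ^ (max (ht h l) (ht h l')) + y / 2 ^ (max (ht h l) (ht h l')) + (if l < h then 1 else 0)

/-- the matrix, as a relation -/
def Rel {h : ℕ} : Idx h → Idx h → Prop
  | ⟨Sum.inl (t, a), _⟩, ⟨Sum.inl (t', a'), _⟩ => t = t' ∧ Valid t ∧ (a = true ∨ a' = true)
  | ⟨Sum.inl (t, a), _⟩, ⟨Sum.inr b, y⟩ => cls ⟨Sum.inr b, y⟩ = reqC t a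
  | ⟨Sum.inr b, x⟩, ⟨Sum.inl (t, a), _⟩ => cls ⟨Sum.inr b, x⟩ = reqR t a
  | ⟨Sum.inr (Sum.inl l), x⟩, ⟨Sum.inr (Sum.inl l'), y⟩ => Stair h l x l' y
  | ⟨Sum.inr (Sum.inl _), _⟩, ⟨Sum.inr (Sum.inr _), _⟩ => False
  | ⟨Sum.inr (Sum.inr _), _⟩, ⟨Sum.inr _, _⟩ => False

/-- the pattern -/
def H (i j : Fin 66) : Bool :=
  decide ((i.val, j.val) ∈ [(0, 1), (0, 2), (1, 0), (1, 1), (1, 3), (2, 0), (2, 2), (3, 1)])

end Crest.Agent.R047
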