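import Crest.Agent.R047.Basic

/-!
Row 47: a pattern-free matrix differs from the construction in at least `4^h` cells.
-/

set_option autoImplicit false

namespace Crest.Agent.R047

variable {h : ℕ}

instance (h : ℕ) : NeZero (2 ^ h) := ⟨by positivity⟩

/-- inner main blocks -/
def Inner : Blk h → Prop
  | Sum.inr (Sum.inl l) => 0 < l.val ∧ l.val < 2 * h
  | _ => False

/-- main blocks -/
def Main : Blk h → Prop
  | Sum.inr (Sum.inl _) => True
  | _ => False

open Classical in
/-- row of chain `ω` in block `b` -/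
noncomputable def rowOf (ω : Fin (2 ^ h) × Fin (2 ^ h)) (b : Blk h) : Idx h :=
  ⟨b, if Main b then ω.1 else ω.1 + ω.2⟩

open Classical in
/-- column of chain `ω` in block `b` -/
noncomputable def colOf (ω : Fin (2 ^ h) × Fin (2 ^ h)) (b : Blk h) : Idx h :=
  ⟨b, if Inner b then ω.1.rev else ω.2⟩

/-- good pairs of blocks -/
def Good (b b' : Blk h) : Prop := ¬ (Main b ∧ Inner b')

lemma cell_inj {b b' : Blk h} (hg : Good b b') {ω ω' : Fin (2 ^ h) × Fin (2 ^ h)}
    (h1 : rowOf ω b = rowOf ω' b) (h2 : colOf ω b' = colOf ω' b') : ω = ω' := by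
  simp only [rowOf, colOf, Idx.mk.injEq, true_and] at h1 h2
  by_cases m : Main b
  · have i : ¬ Inner b' := fun hc => hg ⟨m, hc⟩
    rw [if_pos m, if_pos m] at h1
    rw [if_neg i, if_neg i] at h2
    exact Prod.ext h1 h2
  · rw [if_neg m, if_neg m] at h1
    by_cases i : Inner b'
    · rw [if_pos i, if_pos i] at h2
      have h3 : ω.1 = ω'.1 := Fin.rev_injective h2
      rw [h3] at h1
      exact Prod.ext h3 (add_left_cancel h1)
    · rw [if_neg i, if_neg i] at h2
      rw [h2] at h1
      exact Prod.ext (add_right_cancel h1) h2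

/-- the block sequence of a copy -/
def seq (hh : 1 ≤ h) (t : Mk h) (b2 b3 : Blk h) (i : Fin 66) : Blk h :=
  if i.val = 0 then Sum.inl (t, false) else if i.val = 1 then Sum.inl (t, true)
  else if i.val = 2 then b2 else if i.val = 3 then b3
  else Sum.inr (Sum.inr ⟨i.val - 3, by have := i.2; omega⟩)

lemma seq_strictMono (hh : 1 ≤ h) (t : Mk h) (b2 b3 : Blk h) (f : Blk h → Idx h)
    (hf : ∀ b, (f b).b = b) (h2 : Main b2)
    (h3 : Main b3 ∨ b3 = Sum.inr (Sum.inr ⟨0, by omega⟩)) (h23 : f b2 < f b3) :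
    StrictMono (fun i => f (seq hh t b2 b3 i)) := by
  have hf' : ∀ b, f b = ⟨b, (f b).x⟩ := fun b => by
    conv_lhs => rw [show f b = ⟨(f b).b, (f b).x⟩ from rfl, hf]
  rw [Fin.strictMono_iff_lt_succ]
  intro i
  have hi := i.2
  simp only [seq, Fin.val_castSucc, Fin.val_succ]
  by_cases i0 : i.val = 0
  · rw [if_pos i0, if_neg (by omega), if_pos (by omega), hf', hf' (Sum.inl (t, true))]
    simp [lt_iff, key, Prod.Lex.toLex_lt_toLex]
  by_cases i1 : i.val = 1
  · rw [if_neg i0, if_pos i1, if_neg (by omega), if_neg (by omega), if_pos (by omega), hf', hf' b2]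
    rcases b2 with (b | l | k)
    · simp [Main] at h2
    · simp [lt_iff, key, Prod.Lex.toLex_lt_toLex]
    · simp [Main] at h2
  by_cases i2 : i.val = 2
  · rw [if_neg i0, if_neg i1, if_pos i2, if_neg (by omega), if_neg (by omega), if_neg (by omega),
      if_pos (by omega)]
    exact h23
  by_cases i3 : i.val = 3
  · rw [if_neg i0, if_neg i1, if_neg i2, if_pos i3, if_neg (by omega), if_neg (by omega),
      if_neg (by omega), if_neg (by omega), hf', hf' (Sum.inr (Sum.inr _))]
    rcases h3 with h3 | h3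
    · rcases b3 with (b | l | k)
      · simp [Main] at h3
      · simp [lt_iff, key, Prod.Lex.toLex_lt_toLex]
      · simp [Main] at h3
    · subst h3
      simp [lt_iff, key, Prod.Lex.toLex_lt_toLex]
      omega
  · rw [if_neg i0, if_neg i1, if_neg i2, if_neg i3, if_neg (by omega), if_neg (by omega),
      if_neg (by omega), if_neg (by omega), hf', hf' (Sum.inr (Sum.inr ⟨i.val + 1 - 3, _⟩))]
    simp [lt_iff, key, Prod.Lex.toLex_lt_toLex]
    omega

lemma reqR_ne (t : Mk h) : reqR t false ≠ reqR t true := by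
  rcases t with ⟨(_ | _), l, p, q, r⟩ <;> simp [reqR]
  have := l.2; omega

lemma reqC_ne (t : Mk h) : reqC t false ≠ reqC t true := by
  rcases t with ⟨(_ | _), l, p, q, r⟩ <;> simp [reqC]
  have := l.2; omega

lemma reqR_le (t : Mk h) (a : Bool) : (reqR t a).1 ≤ 2 * h + 1 := by
  rcases t with ⟨(_ | _), l, p, q, r⟩ <;> cases a <;> simp [reqR] <;> have := l.2 <;> omega

lemma reqC_le (t : Mk h) (a : Bool) : (reqC t a).1 ≤ 2 * h + 1 := by
  rcases t with ⟨(_ | _), l, p, q, r⟩ <;> cases a <;> simp [reqC] <;> have := l.2 <;> omega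

lemma rel_pad_row {k : Fin (320 * h + 1)} (hk : k.val ≠ 0) (x : Fin (2 ^ h)) (c : Idx h) :
    ¬ Rel ⟨Sum.inr (Sum.inr k), x⟩ c := by
  rcases c with ⟨(⟨t, a⟩ | b), y⟩
  · simp only [Rel, cls, if_neg hk]
    intro hc
    have := reqR_le t a
    rw [← hc] at this
    simp at this
  · simp [Rel]

lemma rel_pad_col {k : Fin (320 * h + 1)} (hk : k.val ≠ 0) (x : Fin (2 ^ h)) (c : Idx h) :
    ¬ Rel c ⟨Sum.inr (Sum.inr k), x⟩ := by
  rcases c with ⟨(⟨t, a⟩ | l | k'), y⟩
  · simp only [Rel, cls, if_neg hk]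
    intro hc
    have := reqC_le t a
    rw [← hc] at this
    simp at this
  · simp [Rel]
  · simp [Rel]

lemma rel_row_marker {r : Idx h} (hr : ¬ IsM r) (t : Mk h) (a : Bool) (y : Fin (2 ^ h)) :
    Rel r ⟨Sum.inl (t, a), y⟩ ↔ cls r = reqR t a := by
  rcases r with ⟨(b | b), x⟩
  · simp [IsM] at hr
  · rfl

lemma rel_marker_col {c : Idx h} (hc : ¬ IsM c) (t : Mk h) (a : Bool) (y : Fin (2 ^ h)) :
    Rel ⟨Sum.inl (t, a), y⟩ c ↔ cls c = reqC t a := by
  rcases c with ⟨(b | b), x⟩
  · simp [IsM] at hc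
  · rfl

lemma copy_exists (hh : 1 ≤ h) (B : Idx h → Idx h → Prop) (ω : Fin (2 ^ h) × Fin (2 ^ h))
    (hB : ∀ b b', Good b b' → (B (rowOf ω b) (colOf ω b') ↔ Rel (rowOf ω b) (colOf ω b')))
    (t : Mk h) (hv : Valid t) (b2 b3 c2 c3 : Blk h) (m2 : Main b2) (n2 : Main c2)
    (m3 : Main b3 ∨ b3 = Sum.inr (Sum.inr ⟨0, by omega⟩))
    (n3 : Main c3 ∨ c3 = Sum.inr (Sum.inr ⟨0, by omega⟩))
    (o1 : rowOf ω b2 < rowOf ω b3) (o2 : colOf ω c2 < colOf ω c3)
    (k1 : cls (rowOf ω b2) = reqR t false) (k2 : cls (rowOf ω b3) = reqR t true)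
    (k3 : cls (colOf ω c2) = reqC t false) (k4 : cls (colOf ω c3) = reqC t true)
    (e22 : B (rowOf ω b2) (colOf ω c2)) (e23 : ¬ B (rowOf ω b2) (colOf ω c3))
    (e32 : ¬ B (rowOf ω b3) (colOf ω c2)) (e33 : ¬ B (rowOf ω b3) (colOf ω c3)) :
    ∃ R C : Fin 66 → Idx h, StrictMono R ∧ StrictMono C ∧
      ∀ i j, B (R i) (C j) ↔ H i j = true := by
  refine ⟨_, _, seq_strictMono hh t b2 b3 (rowOf ω) (fun _ => rfl) m2 m3 o1,
    seq_strictMono hh t c2 c3 (colOf ω) (fun _ => rfl) n2 n3 o2, ?_⟩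
  have nb2 : ¬ IsM (rowOf ω b2) := by
    rcases b2 with (b | l | k)
    · exact m2.elim
    · simp [IsM, rowOf]
    · exact m2.elim
  have nc2 : ¬ IsM (colOf ω c2) := by
    rcases c2 with (b | l | k)
    · exact n2.elim
    · simp [IsM, colOf]
    · exact n2.elim
  have nb3 : ¬ IsM (rowOf ω b3) := fun hc => nb2 (isM_of_lt o1 hc)
  have nc3 : ¬ IsM (colOf ω c3) := fun hc => nc2 (isM_of_lt o2 hc)
  have gl : ∀ (s : Mk h × Bool) (b' : Blk h), Good (Sum.inl s) b' := fun s b' => by
    simp [Good, Main]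
  have gr : ∀ (s : Mk h × Bool) (b' : Blk h), Good b' (Sum.inl s) := fun s b' => by
    simp [Good, Inner]
  have rne := reqR_ne t
  have cne := reqC_ne t
  intro i j
  by_cases hi : 4 ≤ i.val
  · have h1 : seq hh t b2 b3 i = Sum.inr (Sum.inr ⟨i.val - 3, by have := i.2; omega⟩) := by
      simp only [seq]
      rw [if_neg (by omega), if_neg (by omega), if_neg (by omega), if_neg (by omega)]
    have h2 : ¬ (H i j = true) := by
      simp only [H, decide_eq_true_eq, List.mem_cons, Prod.mk.injEq, List.not_mem_nil, or_false]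
      omega
    simp only [h1]
    rw [hB _ _ (by simp [Good, Main])]
    exact iff_of_false (rel_pad_row (by simp; omega) _ _) h2
  by_cases hj : 4 ≤ j.val
  · have h1 : seq hh t c2 c3 j = Sum.inr (Sum.inr ⟨j.val - 3, by have := j.2; omega⟩) := by
      simp only [seq]
      rw [if_neg (by omega), if_neg (by omega), if_neg (by omega), if_neg (by omega)]
    have h2 : ¬ (H i j = true) := by
      simp only [H, decide_eq_true_eq, List.mem_cons, Prod.mk.injEq, List.not_mem_nil, or_false]
      omega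
    simp only [h1]
    rw [hB _ _ (by simp [Good, Inner])]
    exact iff_of_false (rel_pad_col (by simp; omega) _ _) h2
  have hi' : i.val = 0 ∨ i.val = 1 ∨ i.val = 2 ∨ i.val = 3 := by omega
  have hj' : j.val = 0 ∨ j.val = 1 ∨ j.val = 2 ∨ j.val = 3 := by omega
  rcases hi' with hi' | hi' | hi' | hi' <;> rcases hj' with hj' | hj' | hj' | hj' <;>
    simp only [seq, H, hi', hj'] <;> simp
  · rw [hB _ _ (gl _ _)]; simp [Rel, rowOf, colOf]
  · rw [hB _ _ (gl _ _)]; simp [Rel, rowOf, colOf, hv]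
  · rw [hB _ _ (gl _ _)]; exact (rel_marker_col nc2 _ _ _).2 k3
  · rw [hB _ _ (gl _ _)]; exact fun hc => cne (((rel_marker_col nc3 _ _ _).1 hc).symm.trans k4)
  · rw [hB _ _ (gl _ _)]; simp [Rel, rowOf, colOf, hv]
  · rw [hB _ _ (gl _ _)]; simp [Rel, rowOf, colOf, hv]
  · rw [hB _ _ (gl _ _)]; exact fun hc => cne (k3.symm.trans ((rel_marker_col nc2 _ _ _).1 hc))
  · rw [hB _ _ (gl _ _)]; exact (rel_marker_col nc3 _ _ _).2 k4
  · rw [hB _ _ (gr _ _)]; exact (rel_row_marker nb2 _ _ _).2 k1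
  · rw [hB _ _ (gr _ _)]; exact fun hc => rne (k1.symm.trans ((rel_row_marker nb2 _ _ _).1 hc))
  · exact e22
  · exact e23
  · rw [hB _ _ (gr _ _)]; exact fun hc => rne (((rel_row_marker nb3 _ _ _).1 hc).symm.trans k2)
  · rw [hB _ _ (gr _ _)]; exact (rel_row_marker nb3 _ _ _).2 k2
  · exact e32
  · exact e33

lemma main_lt {l l' : Fin (2 * h + 1)} (hl : l'.val = l.val + 1) {x x' : Fin (2 ^ h)}
    (hx : x.val / 2 ^ (max (ht h l) (ht h (l + 1))) = x'.val / 2 ^ (max (ht h l) (ht h (l + 1)))) :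
    (⟨Sum.inr (Sum.inl l), x⟩ : Idx h) < ⟨Sum.inr (Sum.inl l'), x'⟩ := by
  have := pos_le_succ hx
  simp only [lt_iff, key, Prod.Lex.toLex_lt_toLex, hl, true_and]
  omega

lemma exists_diff (hh : 1 ≤ h) (B : Idx h → Idx h → Prop)
    (hfree : ¬ ∃ R C : Fin 66 → Idx h, StrictMono R ∧ StrictMono C ∧
      ∀ i j, B (R i) (C j) ↔ H i j = true) (ω : Fin (2 ^ h) × Fin (2 ^ h)) :
    ∃ b b', Good b b' ∧ ¬ (B (rowOf ω b) (colOf ω b') ↔ Rel (rowOf ω b) (colOf ω b')) := by
  by_contra hc
  push Not at hc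
  have hu := ω.1.2
  have hv := ω.2.2
  have hpow : 0 < 2 ^ h := by positivity
  have main_pad : ∀ (l : Fin (2 * h + 1)) (k : Fin (320 * h + 1)) (x y : Fin (2 ^ h)),
      (⟨Sum.inr (Sum.inl l), x⟩ : Idx h) < ⟨Sum.inr (Sum.inr k), y⟩ := fun l k x y => by
    simp [lt_iff, key, Prod.Lex.toLex_lt_toLex]
  have key : ∀ l : ℕ, ∀ hl : l ≤ 2 * h,
      B (rowOf ω (Sum.inr (Sum.inl ⟨l, by omega⟩))) (colOf ω (Sum.inr (Sum.inl ⟨l, by omega⟩))) := by
    intro l
    induction l with
    | zero =>
      intro _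
      rw [hc _ _ (by simp [Good, Inner])]
      simp only [rowOf, colOf, Rel, Stair, max_self]
      refine ⟨Or.inl trivial, ?_⟩
      rw [if_pos (show 0 < h by omega), show ht h 0 = h by unfold ht; omega]
      simp
    | succ l ih =>
      intro hl
      have ih := ih (by omega)
      set L : Blk h := Sum.inr (Sum.inl ⟨l, by omega⟩) with hL
      set L' : Blk h := Sum.inr (Sum.inl ⟨l + 1, by omega⟩) with hL'
      set P : Blk h := Sum.inr (Sum.inr ⟨0, by omega⟩) with hP
      have zP : ∀ b : Blk h, Main b → ¬ B (rowOf ω P) (colOf ω b) := fun b hb => by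
        rw [hc _ _ (by simp [Good, Main, hP])]
        rcases b with (b | l | k)
        · exact hb.elim
        · exact fun hc => hc
        · exact hb.elim
      have zP' : ∀ b : Blk h, Main b → ¬ B (rowOf ω b) (colOf ω P) := fun b hb => by
        rw [hc _ _ (by simp [Good, Inner, hP])]
        rcases b with (b | l | k)
        · exact hb.elim
        · exact fun hc => hc
        · exact hb.elim
      have mL : Main L := trivial
      have mL' : Main L' := trivial
      have step1 : B (rowOf ω L) (colOf ω L') := by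
        by_contra hn
        refine hfree (copy_exists hh B ω hc
          (false, ⟨l, by omega⟩, (cls (rowOf ω L)).2, (cls (colOf ω L)).2, (cls (colOf ω L')).2)
          ?_ L P L L' mL mL (Or.inr rfl) (Or.inl mL') (main_pad _ _ _ _) ?_ rfl ?_ rfl rfl ih hn
          (zP _ mL) (zP _ mL'))
        · intro hhl
          simp only at hhl
          have hI : Inner L := by simp only [hL, Inner]; omega
          simp only [rowOf, colOf, if_pos mL, if_pos hI]
          simp only [hL, cls, ne_eq, decide_eq_decide, Fin.val_rev]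
          have h1 := rev_div (h := h) (e := ht h l) (u := ω.1.val) (by unfold ht; omega) hu
          have h3 : h - ht h l = (h - ht h l - 1) + 1 := by unfold ht; omega
          rw [h3, pow_succ] at h1
          omega
        · refine main_lt rfl ?_
          by_cases i1 : Inner L <;> by_cases i2 : Inner L'
          · simp only [if_pos i1, if_pos i2]
          all_goals
            have hm : max (ht h l) (ht h (l + 1)) = h := by
              simp only [hL, hL', Inner] at i1 i2
              unfold ht; omega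
            simp only [hm]
            rw [Nat.div_eq_of_lt (Fin.isLt _), Nat.div_eq_of_lt (Fin.isLt _)]
        · simp [hP, cls, rowOf, reqR]
      by_contra hn
      refine hfree (copy_exists hh B ω hc
        (true, ⟨l, by omega⟩, (cls (rowOf ω L)).2, (cls (colOf ω L')).2, (cls (rowOf ω L')).2)
        ?_ L L' L' P mL mL' (Or.inl mL') (Or.inr rfl) ?_ (main_pad _ _ _ _) rfl rfl rfl ?_ step1
        (zP' _ mL) hn (zP' _ mL'))
      · intro hhl
        simp only at hhl
        have hI : Inner L' := by simp only [hL', Inner]; omega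
        simp only [rowOf, colOf, if_pos mL', if_pos hI]
        simp only [hL', cls, ne_eq, decide_eq_decide, Fin.val_rev]
        have h1 := rev_div (h := h) (e := ht h (l + 1)) (u := ω.1.val) (by unfold ht; omega) hu
        have h3 : h - ht h (l + 1) = (h - ht h (l + 1) - 1) + 1 := by unfold ht; omega
        rw [h3, pow_succ] at h1
        omega
      · refine main_lt rfl ?_
        simp only [if_pos mL, if_pos mL']
      · simp [hP, cls, colOf, reqC]
  have hend := key (2 * h) le_rfl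
  rw [hc _ _ (by simp [Good, Inner])] at hend
  simp only [rowOf, colOf, Rel, Stair, max_self] at hend
  have h2 := hend.2
  rw [if_neg (show ¬ (2 * h < h) by omega), show ht h (2 * h) = h by unfold ht; omega,
    Nat.div_eq_of_lt (Fin.isLt _), Nat.div_eq_of_lt (Fin.isLt _)] at h2
  simp at h2

lemma exists_inj (hh : 1 ≤ h) (B : Idx h → Idx h → Prop)
    (hfree : ¬ ∃ R C : Fin 66 → Idx h, StrictMono R ∧ StrictMono C ∧
      ∀ i j, B (R i) (C j) ↔ H i j = true) :
    ∃ f : Fin (2 ^ h) × Fin (2 ^ h) → Idx h × Idx h, Function.Injective f ∧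
      ∀ ω, ¬ (B (f ω).1 (f ω).2 ↔ Rel (f ω).1 (f ω).2) := by
  choose b b' hg hd using exists_diff hh B hfree
  refine ⟨fun ω => (rowOf ω (b ω), colOf ω (b' ω)), ?_, hd⟩
  intro ω ω' he
  simp only [Prod.mk.injEq] at he
  have e1 : b ω = b ω' := congrArg Idx.b he.1
  have e2 : b' ω = b' ω' := congrArg Idx.b he.2
  rw [← e1] at he
  rw [← e2] at he
  exact cell_inj (hg ω) he.1 he.2

end Crest.Agent.R047
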