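import Crest.Agent.R047.Basic

/-!
Row 47: every copy of the pattern passes through one of the `2^h` special cells.
-/

set_option autoImplicit false

namespace Crest.Agent.R047

/-- abstract rigidity: three non-marker rows cannot carry the pattern of rows 1, 2, 3. -/
lemma rigid {R C K L : Type*} [LinearOrder C] (A : R → C → Prop) (mC : C → Prop)
    (cl : R → K) (lev : C → L) (f g : K → L) (nm : R → Prop)
    (hlow : ∀ c c', c < c' → mC c' → mC c)
    (P3 : ∀ c r r', mC c → nm r → nm r' → A r c → (A r' c ↔ cl r' = cl r))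
    (P1 : ∀ r c, nm r → ¬ mC c → A r c → lev c = f (cl r) ∨ lev c = g (cl r))
    (P2 : ∀ r c c', nm r → ¬ mC c → c < c' → lev c = lev c' → A r c → A r c')
    {ρ r1 r2 : R} (hρ : nm ρ) (h1 : nm r1) (h2 : nm r2)
    {k1 k2 c1 c2 : C} (o1 : k1 < k2) (o2 : k2 < c1) (o3 : c1 < c2)
    (a1 : A ρ k1) (a2 : A ρ k2) (a3 : ¬ A ρ c1) (a4 : A ρ c2)
    (b1 : A r1 k1) (b2 : ¬ A r1 k2) (b3 : A r1 c1) (b4 : ¬ A r1 c2)
    (d1 : ¬ A r2 k1) (d2 : A r2 k2) (d4 : ¬ A r2 c2) : False := by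
  by_cases m1 : mC k1
  · have e1 : cl r1 = cl ρ := (P3 k1 ρ r1 m1 hρ h1 a1).1 b1
    by_cases m2 : mC k2
    · have e2 : cl r2 = cl ρ := (P3 k2 ρ r2 m2 hρ h2 a2).1 d2
      exact d1 ((P3 k1 ρ r2 m1 hρ h2 a1).2 e2)
    · have m3 : ¬ mC c1 := fun hc => m2 (hlow _ _ o2 hc)
      have m4 : ¬ mC c2 := fun hc => m3 (hlow _ _ o3 hc)
      have l2 := P1 ρ k2 hρ m2 a2
      have l3 := P1 r1 c1 h1 m3 b3
      have l4 := P1 ρ c2 hρ m4 a4
      rw [e1] at l3
      have n23 : lev k2 ≠ lev c1 := fun e => a3 (P2 ρ k2 c1 hρ m2 o2 e a2)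
      have n24 : lev k2 ≠ lev c2 := fun e => d4 (P2 r2 k2 c2 h2 m2 (o2.trans o3) e d2)
      have n34 : lev c1 ≠ lev c2 := fun e => b4 (P2 r1 c1 c2 h1 m3 o3 e b3)
      rcases l2 with l2 | l2 <;> rcases l3 with l3 | l3 <;> rcases l4 with l4 | l4 <;> simp_all
  · have m2 : ¬ mC k2 := fun hc => m1 (hlow _ _ o1 hc)
    have m4 : ¬ mC c2 := fun hc => m2 (hlow _ _ (o2.trans o3) hc)
    have l1 := P1 ρ k1 hρ m1 a1
    have l2 := P1 ρ k2 hρ m2 a2
    have l4 := P1 ρ c2 hρ m4 a4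
    have n12 : lev k1 ≠ lev k2 := fun e => b2 (P2 r1 k1 k2 h1 m1 o1 e b1)
    have n14 : lev k1 ≠ lev c2 := fun e => b4 (P2 r1 k1 c2 h1 m1 (o1.trans (o2.trans o3)) e b1)
    have n24 : lev k2 ≠ lev c2 := fun e => d4 (P2 r2 k2 c2 h2 m2 (o2.trans o3) e d2)
    rcases l1 with l1 | l1 <;> rcases l2 with l2 | l2 <;> rcases l4 with l4 | l4 <;> simp_all

variable {h : ℕ}

lemma stair_mono_right {l x l' y y' : ℕ} (hp : pos h l' y ≤ pos h l' y')
    (hs : Stair h l x l' y) : Stair h l x l' y' := by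
  refine ⟨hs.1, ?_⟩
  have := div_le_of_pos_le hp (le_max_right (ht h l) _) (le_max_right (ht h l) _)
  have h2 := hs.2
  omega

lemma stair_mono_left {l x x' l' y : ℕ} (hp : pos h l x ≤ pos h l x')
    (hs : Stair h l x l' y) : Stair h l x' l' y := by
  refine ⟨hs.1, ?_⟩
  have := div_le_of_pos_le hp (le_max_left _ (ht h l')) (le_max_left _ (ht h l'))
  have h2 := hs.2
  omega

lemma row_marker {ρ r1 r2 k1 k2 c1 c2 : Idx h} (p1 : ρ < r1) (p2 : r1 < r2)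
    (o1 : k1 < k2) (o2 : k2 < c1) (o3 : c1 < c2)
    (a1 : Rel ρ k1) (a2 : Rel ρ k2) (a3 : ¬ Rel ρ c1) (a4 : Rel ρ c2)
    (b1 : Rel r1 k1) (b2 : ¬ Rel r1 k2) (b3 : Rel r1 c1) (b4 : ¬ Rel r1 c2)
    (d1 : ¬ Rel r2 k1) (d2 : Rel r2 k2) (d4 : ¬ Rel r2 c2) : IsM ρ := by
  by_contra hρ
  have h1 : ¬ IsM r1 := fun hc => hρ (isM_of_lt p1 hc)
  have h2 : ¬ IsM r2 := fun hc => h1 (isM_of_lt p2 hc)
  refine rigid (fun r c : Idx h => Rel r c) IsM cls (fun c => (cls c).1) (fun k => k.1)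
    (fun k => k.1 + 1) (fun r => ¬ IsM r) (fun c c' => isM_of_lt) ?_ ?_ ?_ hρ h1 h2 o1 o2 o3
    a1 a2 a3 a4 b1 b2 b3 b4 d1 d2 d4
  · rintro ⟨(⟨t, a⟩ | c), y⟩ ⟨(r | r), x⟩ ⟨(r' | r'), x'⟩ hc hr hr' hA <;>
      simp_all [IsM, Rel]
  · rintro ⟨(r | l | k), x⟩ ⟨(c | l' | k'), y⟩ hr hc hA <;> simp_all [IsM, Rel, cls]
    exact hA.1
  · rintro ⟨(r | l | k), x⟩ ⟨(c | l' | k'), y⟩ ⟨(c' | l'' | k''), y'⟩ hr hc hlt hl hA <;>
      try (simp_all [IsM, Rel]; done)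
    · exact absurd (isM_of_lt hlt (by simp [IsM])) hc
    · have hl' : l' = l'' := Fin.ext (by simpa [cls] using hl)
      subst hl'
      exact stair_mono_right (pos_le_of_lt hlt) hA
    · exfalso
      have := l'.2
      simp only [cls] at hl
      split_ifs at hl <;> omega

lemma col_marker {ρ r1 r2 k1 k2 c1 c2 : Idx h} (p1 : ρ < r1) (p2 : r1 < r2)
    (o1 : k1 < k2) (o2 : k2 < c1) (o3 : c1 < c2)
    (a1 : Rel k1 ρ) (a2 : Rel k2 ρ) (a3 : ¬ Rel c1 ρ) (a4 : Rel c2 ρ)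
    (b1 : Rel k1 r1) (b2 : ¬ Rel k2 r1) (b3 : Rel c1 r1) (b4 : ¬ Rel c2 r1)
    (d1 : ¬ Rel k1 r2) (d2 : Rel k2 r2) (d4 : ¬ Rel c2 r2) : IsM ρ := by
  by_contra hρ
  have h1 : ¬ IsM r1 := fun hc => hρ (isM_of_lt p1 hc)
  have h2 : ¬ IsM r2 := fun hc => h1 (isM_of_lt p2 hc)
  refine rigid (fun r c : Idx h => Rel c r) IsM cls (fun c => (cls c).1) (fun k => k.1)
    (fun k => k.1 - 1) (fun r => ¬ IsM r) (fun c c' => isM_of_lt) ?_ ?_ ?_ hρ h1 h2 o1 o2 o3
    a1 a2 a3 a4 b1 b2 b3 b4 d1 d2 d4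
  · rintro ⟨(⟨t, a⟩ | c), y⟩ ⟨(r | r), x⟩ ⟨(r' | r'), x'⟩ hc hr hr' hA <;>
      simp_all [IsM, Rel]
  · rintro ⟨(r | l | k), x⟩ ⟨(c | l' | k'), y⟩ hr hc hA <;> simp_all [IsM, Rel, cls]
    have := hA.1
    omega
  · rintro ⟨(r | l | k), x⟩ ⟨(c | l' | k'), y⟩ ⟨(c' | l'' | k''), y'⟩ hr hc hlt hl hA <;>
      try (simp_all [IsM, Rel]; done)
    · exact absurd (isM_of_lt hlt (by simp [IsM])) hc
    · have hl' : l' = l'' := Fin.ext (by simpa [cls] using hl)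
      subst hl'
      exact stair_mono_left (pos_le_of_lt hlt) hA
    · exfalso
      have := l'.2
      simp only [cls] at hl
      split_ifs at hl <;> omega

lemma main_of_cls {a : Idx h} {l : ℕ} {p : Bool} (hl : l ≤ 2 * h) (ha : cls a = (l, p)) :
    ∃ (l' : Fin (2 * h + 1)) (x : Fin (2 ^ h)), a = ⟨Sum.inr (Sum.inl l'), x⟩ ∧ l'.val = l ∧
      decide (x.val / 2 ^ (ht h l) % 2 = 1) = p := by
  rcases a with ⟨(r | l' | k), x⟩
  · simp only [cls, Prod.mk.injEq] at ha; omega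
  · simp only [cls, Prod.mk.injEq] at ha
    exact ⟨l', x, rfl, ha.1, by rw [← ha.1]; exact ha.2⟩
  · simp only [cls, Prod.mk.injEq] at ha
    split_ifs at ha <;> omega

lemma row_step {l x y y' : ℕ} (hl : l < 2 * h) (hp : pos h l y ≤ pos h (l + 1) y')
    (hpar : h ≤ l → decide (x / 2 ^ (ht h l) % 2 = 1) ≠ decide (y / 2 ^ (ht h l) % 2 = 1))
    (hs : Stair h l x l y) : Stair h l x (l + 1) y' := by
  refine ⟨Or.inr rfl, ?_⟩
  have h1 := div_le_of_pos_le hp (le_max_left _ (ht h (l + 1))) (le_max_right _ _)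
  have h2 := hs.2
  rw [max_self] at h2
  by_cases hlh : l < h
  · have hm : max (ht h l) (ht h (l + 1)) = ht h l := by unfold ht; omega
    rw [hm] at h1 ⊢
    omega
  · have hm : max (ht h l) (ht h (l + 1)) = ht h l + 1 := by unfold ht; omega
    rw [hm] at h1 ⊢
    have h3 : h - ht h l = (h - (ht h l + 1)) + 1 := by unfold ht; omega
    rw [h3, pow_succ] at h2
    rw [pow_succ, ← Nat.div_div_eq_div_mul, ← Nat.div_div_eq_div_mul] at h1
    rw [pow_succ, ← Nat.div_div_eq_div_mul, ← Nat.div_div_eq_div_mul]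
    have h4 := hpar (by omega)
    simp only [ne_eq, decide_eq_decide] at h4
    rw [if_neg hlh] at h2 ⊢
    omega

lemma col_step {l x x' y : ℕ} (hl : l < 2 * h) (hp : pos h l x ≤ pos h (l + 1) x')
    (hpar : l + 1 ≤ h → decide (x' / 2 ^ (ht h (l + 1)) % 2 = 1) ≠
      decide (y / 2 ^ (ht h (l + 1)) % 2 = 1))
    (hs : Stair h l x (l + 1) y) (hn : ¬ Stair h (l + 1) x' (l + 1) y) :
    l + 1 = h ∧ x' + y + 1 = 2 ^ h := by
  have h1 := div_le_of_pos_le hp (le_max_left _ (ht h (l + 1))) (le_max_right _ _)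
  have h2 := hs.2
  have h5 : ¬ _ := fun hc => hn ⟨Or.inl rfl, hc⟩
  rw [max_self] at h5
  by_cases hlh : l < h
  · have hm : max (ht h l) (ht h (l + 1)) = ht h (l + 1) + 1 := by unfold ht; omega
    rw [hm] at h1 h2
    have h3 : h - ht h (l + 1) = (h - (ht h (l + 1) + 1)) + 1 := by unfold ht; omega
    rw [h3, pow_succ] at h5
    rw [pow_succ, ← Nat.div_div_eq_div_mul, ← Nat.div_div_eq_div_mul] at h1
    rw [pow_succ, ← Nat.div_div_eq_div_mul, ← Nat.div_div_eq_div_mul] at h2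
    have h4 := hpar (by omega)
    simp only [ne_eq, decide_eq_decide] at h4
    rw [if_pos hlh] at h2
    by_cases hlh' : l + 1 < h
    · rw [if_pos hlh'] at h5
      omega
    · rw [if_neg hlh'] at h5
      have h6 : ht h (l + 1) = 0 := by unfold ht; omega
      have h7 : 2 ^ h = 2 ^ (h - (ht h (l + 1) + 1)) * 2 := by
        rw [← pow_succ]; congr 1; omega
      rw [h7]
      rw [h6] at h1 h2 h4 h5
      simp only [pow_zero, Nat.div_one] at h1 h2 h4 h5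
      rw [h6]
      omega
  · have hm : max (ht h l) (ht h (l + 1)) = ht h (l + 1) := by unfold ht; omega
    rw [hm] at h1 h2
    rw [if_neg hlh] at h2
    rw [if_neg (by omega)] at h5
    omega

/-- the special cells -/
def special (h : ℕ) (x : Fin (2 ^ h)) : Idx h × Idx h :=
  (⟨Sum.inr (Sum.inl ⟨h, by omega⟩), x⟩, ⟨Sum.inr (Sum.inl ⟨h, by omega⟩), x.rev⟩)

lemma copy_special (R C : Fin 66 → Idx h) (hR : StrictMono R) (hC : StrictMono C)
    (hA : ∀ i j, Rel (R i) (C j) ↔ H i j = true) : ∃ x, special h x = (R 3, C 2) := by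
  have r01 : R 0 < R 1 := hR (by decide)
  have r12 : R 1 < R 2 := hR (by decide)
  have r23 : R 2 < R 3 := hR (by decide)
  have c01 : C 0 < C 1 := hC (by decide)
  have c12 : C 1 < C 2 := hC (by decide)
  have c23 : C 2 < C 3 := hC (by decide)
  have a00 : ¬ Rel (R 0) (C 0) := by rw [hA]; decide
  have a01 : Rel (R 0) (C 1) := by rw [hA]; decide
  have a02 : Rel (R 0) (C 2) := by rw [hA]; decide
  have a03 : ¬ Rel (R 0) (C 3) := by rw [hA]; decide
  have a10 : Rel (R 1) (C 0) := by rw [hA]; decide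
  have a11 : Rel (R 1) (C 1) := by rw [hA]; decide
  have a12 : ¬ Rel (R 1) (C 2) := by rw [hA]; decide
  have a13 : Rel (R 1) (C 3) := by rw [hA]; decide
  have a20 : Rel (R 2) (C 0) := by rw [hA]; decide
  have a21 : ¬ Rel (R 2) (C 1) := by rw [hA]; decide
  have a22 : Rel (R 2) (C 2) := by rw [hA]; decide
  have a23 : ¬ Rel (R 2) (C 3) := by rw [hA]; decide
  have a30 : ¬ Rel (R 3) (C 0) := by rw [hA]; decide
  have a31 : Rel (R 3) (C 1) := by rw [hA]; decide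
  have a32 : ¬ Rel (R 3) (C 2) := by rw [hA]; decide
  have a33 : ¬ Rel (R 3) (C 3) := by rw [hA]; decide
  have mR1 : IsM (R 1) :=
    row_marker r12 r23 c01 c12 c23 a10 a11 a12 a13 a20 a21 a22 a23 a30 a31 a33
  have mC1 : IsM (C 1) :=
    col_marker c12 c23 r01 r12 r23 a01 a11 a21 a31 a02 a12 a22 a32 a03 a13 a33
  have mR0 : IsM (R 0) := isM_of_lt r01 mR1
  have mC0 : IsM (C 0) := isM_of_lt c01 mC1
  generalize R 0 = R0 at *
  generalize R 1 = R1 at *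
  generalize R 2 = R2 at *
  generalize R 3 = R3 at *
  generalize C 0 = C0 at *
  generalize C 1 = C1 at *
  generalize C 2 = C2 at *
  generalize C 3 = C3 at *
  clear hA hR hC
  rcases R0 with ⟨(⟨t0, s0⟩ | b), x0⟩
  swap; · simp [IsM] at mR0
  rcases R1 with ⟨(⟨t1, s1⟩ | b), x1⟩
  swap; · simp [IsM] at mR1
  rcases C0 with ⟨(⟨u0, v0⟩ | b), y0⟩
  swap; · simp [IsM] at mC0
  rcases C1 with ⟨(⟨u1, v1⟩ | b), y1⟩
  swap; · simp [IsM] at mC1
  simp only [Rel] at a00 a01 a10 a11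
  obtain ⟨rfl, hv, -⟩ := a11
  obtain ⟨rfl, -, e01⟩ := a01
  obtain ⟨rfl, -, e10⟩ := a10
  have hs0 : s0 = false := by by_contra hc; exact a00 ⟨rfl, hv, Or.inl (by simpa using hc)⟩
  have hv0 : v0 = false := by by_contra hc; exact a00 ⟨rfl, hv, Or.inr (by simpa using hc)⟩
  subst hs0 hv0
  have hv1 : v1 = true := by simpa using e01
  have hs1 : s1 = true := by simpa using e10
  subst hv1 hs1
  have nR2 : ¬ IsM R2 := by
    rcases R2 with ⟨(⟨t, s⟩ | b), x⟩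
    · simp only [Rel] at a20 a21
      exact absurd ⟨a20.1, a20.2.1, Or.inr trivial⟩ a21
    · simp [IsM]
  have nC2 : ¬ IsM C2 := by
    rcases C2 with ⟨(⟨t, s⟩ | b), x⟩
    · simp only [Rel] at a02 a12
      exact absurd ⟨a02.1, a02.2.1, Or.inl trivial⟩ a12
    · simp [IsM]
  have nR3 : ¬ IsM R3 := fun hc => nR2 (isM_of_lt r23 hc)
  have nC3 : ¬ IsM C3 := fun hc => nC2 (isM_of_lt c23 hc)
  have kR2 : cls R2 = reqR t0 false := by
    rcases R2 with ⟨(b | b), x⟩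
    · simp [IsM] at nR2
    · exact a20
  have kR3 : cls R3 = reqR t0 true := by
    rcases R3 with ⟨(b | b), x⟩
    · simp [IsM] at nR3
    · exact a31
  have kC2 : cls C2 = reqC t0 false := by
    rcases C2 with ⟨(b | b), x⟩
    · simp [IsM] at nC2
    · exact a02
  have kC3 : cls C3 = reqC t0 true := by
    rcases C3 with ⟨(b | b), x⟩
    · simp [IsM] at nC3
    · exact a13
  rcases t0 with ⟨(_ | _), l, p, q, r⟩
  · exfalso
    have hl := l.2
    obtain ⟨l2, x2, rfl, e2, p2⟩ := main_of_cls (by omega) kR2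
    obtain ⟨m2, y2, rfl, f2, q2⟩ := main_of_cls (by omega) kC2
    obtain ⟨m3, y3, rfl, f3, q3⟩ := main_of_cls (by omega) kC3
    have hp := pos_le_of_lt c23
    simp only [Rel] at a22 a23
    rw [e2, f2] at a22
    rw [e2, f3] at a23
    rw [f2, f3] at hp
    exact a23 (row_step hl hp (fun hh => by rw [p2, q2]; exact hv hh) a22)
  · have hl := l.2
    obtain ⟨l2, x2, rfl, e2, p2⟩ := main_of_cls (by omega) kR2
    obtain ⟨l3, x3, rfl, e3, p3⟩ := main_of_cls (by omega) kR3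
    obtain ⟨m2, y2, rfl, f2, q2⟩ := main_of_cls (by omega) kC2
    have hp := pos_le_of_lt r23
    simp only [Rel] at a22 a32
    rw [e2, f2] at a22
    rw [e3, f2] at a32
    rw [e2, e3] at hp
    obtain ⟨g1, g2⟩ := col_step hl hp (fun hh => by rw [p3, q2]; exact hv hh) a22 a32
    refine ⟨x3, ?_⟩
    simp only [special, Prod.mk.injEq, Idx.mk.injEq, Sum.inr.injEq, Sum.inl.injEq, and_true]
    refine ⟨Fin.ext (by simp; omega), Fin.ext (by simp; omega), Fin.ext ?_⟩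
    rw [Fin.val_rev]; omega

end Crest.Agent.R047
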